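import Vale.Agent.P022.H587.L3.Kum
import Vale.Agent.P022.H138.L3.Defs

/-!
# P022-L3, chapter G: the Kummer isomorphism in final letters (helper587)
-/

open UpperHalfPlane
open scoped MatrixGroups

namespace Vale.Agent.P022.H587.L3

noncomputable section

open Vale.Agent.P022.H218.L3

/-- the root of unity `exp (2 π i / N)` -/
def zt (N : ℕ) : ℂ := Complex.exp (2 * Real.pi * Complex.I / N)

theorem zt_prim {N : ℕ} (hN : 0 < N) : IsPrimitiveRoot (zt N) N :=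
  Complex.isPrimitiveRoot_exp N hN.ne'

/-- `c ↦ ζ ^ c` -/
def ez (N : ℕ) (c : ZMod N) : ℂ := zt N ^ c.val

theorem ez_zero (N : ℕ) : ez N 0 = 1 := by
  unfold ez
  rw [ZMod.val_zero, pow_zero]

theorem ez_add {N : ℕ} (hN : 0 < N) (a b : ZMod N) : ez N (a + b) = ez N a * ez N b := by
  have : NeZero N := ⟨hN.ne'⟩
  unfold ez
  rw [← pow_add, ZMod.val_add]
  exact (pow_eq_pow_mod _ (zt_prim hN).pow_eq_one).symm

theorem ez_inj {N : ℕ} (hN : 0 < N) {a b : ZMod N} (h : ez N a = ez N b) : a = b := by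
  have : NeZero N := ⟨hN.ne'⟩
  exact ZMod.val_injective N ((zt_prim hN).pow_inj (ZMod.val_lt a) (ZMod.val_lt b) h)

theorem ez_surj {N : ℕ} (hN : 0 < N) {w : ℂ} (hw : w ^ N = 1) : ∃ c : ZMod N, ez N c = w := by
  have : NeZero N := ⟨hN.ne'⟩
  obtain ⟨i, hi, h⟩ := (zt_prim hN).eq_pow_of_pow_eq_one hw
  refine ⟨(i : ZMod N), ?_⟩
  unfold ez
  rw [ZMod.val_natCast_of_lt hi, h]

theorem ez_pow {N : ℕ} (hN : 0 < N) (c : ZMod N) : ez N c ^ N = 1 := by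
  unfold ez
  rw [← pow_mul, mul_comm, pow_mul, (zt_prim hN).pow_eq_one, one_pow]

/-- `y (γ τ) = ζ ^ (v γ) y τ` -/
def IsVal (Γ : Subgroup SL(2, ℤ)) (y : Mer) {N : ℕ} (v : SL(2, ℤ) → ZMod N) : Prop :=
  ∀ γ ∈ Γ, act γ⁻¹ y = algebraMap ℂ Mer (ez N (v γ)) * y

theorem IsVal.unique {Γ : Subgroup SL(2, ℤ)} {y : Mer} {N : ℕ} (hN : 0 < N)
    {v v' : SL(2, ℤ) → ZMod N} (h : IsVal Γ y v) (h' : IsVal Γ y v') (hy : y ≠ 0)
    {γ : SL(2, ℤ)} (hγ : γ ∈ Γ) : v γ = v' γ := by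
  have h1 := (h γ hγ).symm.trans (h' γ hγ)
  exact ez_inj hN ((algebraMap ℂ Mer).injective (mul_right_cancel₀ hy h1))

theorem IsVal.mul {Γ : Subgroup SL(2, ℤ)} {y y' : Mer} {N : ℕ} (hN : 0 < N)
    {v v' : SL(2, ℤ) → ZMod N} (h : IsVal Γ y v) (h' : IsVal Γ y' v') :
    IsVal Γ (y * y') (v + v') := by
  intro γ hγ
  rw [map_mul, h γ hγ, h' γ hγ, Pi.add_apply, ez_add hN, map_mul]
  ring

theorem IsVal.const {Γ : Subgroup SL(2, ℤ)} {y : Mer} {N : ℕ} {v : SL(2, ℤ) → ZMod N}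
    (h : IsVal Γ y v) (c : ℂ) : IsVal Γ (algebraMap ℂ Mer c * y) v := by
  intro γ hγ
  rw [map_mul, h γ hγ, AlgEquiv.commutes]
  ring

theorem root_eq {N : ℕ} (hN : 0 < N) {y y' : Mer} (hy : y ≠ 0) (e : y' ^ N = y ^ N) :
    ∃ c : ℂ, y' = algebraMap ℂ Mer c * y := by
  obtain ⟨ζ, -, hζ⟩ := exists_const hN (x := y' / y) (by
    rw [div_pow, e, div_self (pow_ne_zero _ hy)])
  exact ⟨ζ, by rw [← hζ, div_mul_cancel₀ _ hy]⟩

section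

variable {N M n : ℕ} {Γ : Subgroup SL(2, ℤ)}

theorem exists_val (hΓ : ∀ γ, γ ∈ Γ ↔ Vale.Agent.P022.L3.InG N M γ) (f : (MF Γ)ˣ)
    (hf : Dv (2 ^ n) ((f : MF Γ) : Mer)) :
    ∃ v : Vale.Agent.P022.L3.V N M n, ∀ y : Mer, y ^ 2 ^ n = ((f : MF Γ) : Mer) →
      IsVal Γ y (v : SL(2, ℤ) → ZMod (2 ^ n)) := by
  classical
  have hN : 0 < 2 ^ n := pow_pos (by norm_num) n
  have hf0 : ((f : MF Γ) : Mer) ≠ 0 := fun h => f.ne_zero (Subtype.ext h)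
  obtain ⟨y, y0, hy⟩ := exists_root hN hf0 hf
  obtain ⟨φ, hφN, hφ1, hφ⟩ := exists_char (Γ := Γ) hN y0 (fun γ hγ => by
    rw [hy]; exact act_eq_self (f : MF Γ).2 hγ)
  have hc : ∀ γ : Γ, ∃ c : ZMod (2 ^ n), ez (2 ^ n) c = φ γ := fun γ => ez_surj hN (by
    have := congrArg (fun f : Γ →* ℂˣ => ((f γ : ℂˣ) : ℂ)) hφN
    simpa using this)
  choose c hc using hc
  let v : SL(2, ℤ) → ZMod (2 ^ n) := fun γ => if h : γ ∈ Γ then c ⟨γ, h⟩ else 0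
  have hv : ∀ γ (h : γ ∈ Γ), ez (2 ^ n) (v γ) = φ ⟨γ, h⟩ := by
    intro γ h
    simp only [v, dif_pos h, hc]
  refine ⟨⟨v, ?_, ?_, ?_⟩, ?_⟩
  · intro γ h
    have : γ ∉ Γ := fun h' => h ((hΓ γ).1 h')
    simp only [v, dif_neg this]
  · intro γ δ h1 h2
    have h1' := (hΓ γ).2 h1
    have h2' := (hΓ δ).2 h2
    apply ez_inj hN
    rw [ez_add hN, hv _ h1', hv _ h2', hv _ (Γ.mul_mem h1' h2')]
    rw [← Units.val_mul, ← map_mul]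
    rfl
  · by_cases h : (-1 : SL(2, ℤ)) ∈ Γ
    · apply ez_inj hN
      rw [ez_zero, hv _ h, hφ1 ⟨-1, h⟩ rfl, Units.val_one]
    · simp only [v, dif_neg h]
  · intro y' hy'
    obtain ⟨ζ, rfl⟩ := root_eq hN y0 (hy'.trans hy.symm)
    refine IsVal.const ?_ ζ
    intro γ hγ
    have := hφ ⟨γ, hγ⟩
    rw [this]
    congr 2
    exact (hv γ hγ).symm

variable (hΓ : ∀ γ, γ ∈ Γ ↔ Vale.Agent.P022.L3.InG N M γ) (U : Subgroup (MF Γ)ˣ)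
  (hU : ∀ f : (MF Γ)ˣ, f ∈ U ↔ Dv (2 ^ n) ((f : MF Γ) : Mer))

/-- the character of a class -/
def kv (f : U) : Vale.Agent.P022.L3.V N M n :=
  (exists_val hΓ (f : (MF Γ)ˣ) ((hU _).1 f.2)).choose

theorem kv_spec (f : U) (y : Mer) (hy : y ^ 2 ^ n = (((f : (MF Γ)ˣ) : MF Γ) : Mer)) :
    IsVal Γ y (kv hΓ U hU f : SL(2, ℤ) → ZMod (2 ^ n)) :=
  (exists_val hΓ (f : (MF Γ)ˣ) ((hU _).1 f.2)).choose_spec y hy

theorem kv_eq (f : U) (y : Mer) (y0 : y ≠ 0) (hy : y ^ 2 ^ n = (((f : (MF Γ)ˣ) : MF Γ) : Mer))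
    (v : Vale.Agent.P022.L3.V N M n) (hv : IsVal Γ y (v : SL(2, ℤ) → ZMod (2 ^ n))) :
    kv hΓ U hU f = v := by
  apply Subtype.ext
  funext γ
  by_cases h : γ ∈ Γ
  · exact (kv_spec hΓ U hU f y hy).unique (pow_pos (by norm_num) n) hv y0 h
  · rw [(kv hΓ U hU f).2.1 γ (fun h' => h ((hΓ γ).2 h')),
      v.2.1 γ (fun h' => h ((hΓ γ).2 h'))]

omit hΓ in
include hU in
theorem ex_root (f : U) : ∃ y : Mer, y ≠ 0 ∧ y ^ 2 ^ n = (((f : (MF Γ)ˣ) : MF Γ) : Mer) :=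
  exists_root (pow_pos (by norm_num) n) (fun h => (f : (MF Γ)ˣ).ne_zero (Subtype.ext h))
    ((hU _).1 f.2)

theorem V_zero (γ : SL(2, ℤ)) :
    ((0 : Vale.Agent.P022.L3.V N M n) : SL(2, ℤ) → ZMod (2 ^ n)) γ = 0 := rfl

theorem kv_one : kv hΓ U hU 1 = 0 := by
  refine kv_eq hΓ U hU 1 1 one_ne_zero (by simp) 0 ?_
  intro γ _
  rw [map_one, V_zero, ez_zero, map_one, one_mul]

theorem kv_mul (f g : U) : kv hΓ U hU (f * g) = kv hΓ U hU f + kv hΓ U hU g := by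
  obtain ⟨y, y0, hy⟩ := ex_root U hU f
  obtain ⟨z, z0, hz⟩ := ex_root U hU g
  refine kv_eq hΓ U hU (f * g) (y * z) (mul_ne_zero y0 z0) ?_ _ ?_
  · rw [mul_pow, hy, hz]
    rfl
  · exact (kv_spec hΓ U hU f y hy).mul (pow_pos (by norm_num) n) (kv_spec hΓ U hU g z hz)

include hΓ in
theorem exists_hom (v : Vale.Agent.P022.L3.V N M n) : ∃ φ : Γ →* ℂˣ,
    ∀ γ : Γ, ((φ γ : ℂˣ) : ℂ) = ez (2 ^ n) ((v : SL(2, ℤ) → ZMod (2 ^ n)) γ) := by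
  have hN : 0 < 2 ^ n := pow_pos (by norm_num) n
  have h0 : ∀ c : ZMod (2 ^ n), ez (2 ^ n) c ≠ 0 := by
    intro c h
    have := ez_pow hN c
    rw [h, zero_pow hN.ne'] at this
    exact zero_ne_one this
  refine ⟨MonoidHom.mk' (fun γ : Γ => Units.mk0 _ (h0 ((v : SL(2, ℤ) → ZMod (2 ^ n)) γ)))
    (fun γ δ => ?_), fun γ => rfl⟩
  apply Units.ext
  rw [Units.val_mul, Units.val_mk0, Units.val_mk0, Units.val_mk0, Subgroup.coe_mul, ← ez_add hN,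
    v.2.2.1 _ _ ((hΓ _).1 γ.2) ((hΓ _).1 δ.2)]

theorem kv_surj (v : Vale.Agent.P022.L3.V N M n) : ∃ f : U, kv hΓ U hU f = v := by
  have hN : 0 < 2 ^ n := pow_pos (by norm_num) n
  obtain ⟨φ, hφ⟩ := exists_hom hΓ v
  have hφN : φ ^ 2 ^ n = 1 := by
    ext γ
    rw [MonoidHom.pow_apply, MonoidHom.one_apply, Units.val_pow_eq_pow_val, Units.val_one, hφ]
    exact ez_pow hN _
  have hφ1 : ∀ γ : Γ, (γ : SL(2, ℤ)) = -1 → φ γ = 1 := by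
    intro γ hγ
    apply Units.ext
    rw [hφ, hγ, v.2.2.2, ez_zero, Units.val_one]
  obtain ⟨y, y0, hy, hyM⟩ := exists_of_char hN φ hφN hφ1
  have hyM0 : (⟨y ^ 2 ^ n, hyM⟩ : MF Γ) ≠ 0 := fun h =>
    pow_ne_zero (2 ^ n) y0 (congrArg Subtype.val h)
  have hm : Units.mk0 (⟨y ^ 2 ^ n, hyM⟩ : MF Γ) hyM0 ∈ U := (hU _).2 (Dv_pow _ y y0)
  refine ⟨⟨Units.mk0 (⟨y ^ 2 ^ n, hyM⟩ : MF Γ) hyM0, hm⟩, ?_⟩
  refine kv_eq hΓ U hU _ y y0 rfl v ?_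
  intro γ hγ
  have := hy ⟨γ, hγ⟩
  rw [hφ] at this
  exact this

theorem kv_ker (f : U) : kv hΓ U hU f = 0 ↔ ∃ g : (MF Γ)ˣ, g ^ 2 ^ n = (f : (MF Γ)ˣ) := by
  have hN : 0 < 2 ^ n := pow_pos (by norm_num) n
  constructor
  · intro h
    obtain ⟨y, y0, hy⟩ := ex_root U hU f
    have h1 := kv_spec hΓ U hU f y hy
    rw [h] at h1
    have h2 : IsChar Γ y 1 := by
      intro γ
      rw [h1 γ γ.2, V_zero, ez_zero, MonoidHom.one_apply, Units.val_one]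
    have h3 : y ∈ MF Γ := mem_of_trivial hN y0 (by rw [hy]; exact ((f : (MF Γ)ˣ) : MF Γ).2) h2
    have h4 : (⟨y, h3⟩ : MF Γ) ≠ 0 := fun h => y0 (congrArg Subtype.val h)
    refine ⟨Units.mk0 ⟨y, h3⟩ h4, ?_⟩
    apply Units.ext
    apply Subtype.ext
    exact hy
  · rintro ⟨g, hg⟩
    have hg0 : ((g : MF Γ) : Mer) ≠ 0 := fun h => g.ne_zero (Subtype.ext h)
    refine kv_eq hΓ U hU f ((g : MF Γ) : Mer) hg0 (by rw [← hg]; rfl) 0 ?_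
    intro γ hγ
    rw [act_eq_self (g : MF Γ).2 (Γ.inv_mem hγ), V_zero, ez_zero, map_one, one_mul]

/-- the homomorphism -/
def kum : U →* Multiplicative (Vale.Agent.P022.L3.V N M n) :=
  MonoidHom.mk' (fun f => Multiplicative.ofAdd (kv hΓ U hU f))
    (fun f g => (congrArg Multiplicative.ofAdd (kv_mul hΓ U hU f g)).trans (ofAdd_add _ _))

theorem kum_apply (f : U) : kum hΓ U hU f = Multiplicative.ofAdd (kv hΓ U hU f) := rfl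

include hΓ hU in
/-- **[KUM], final letters.** -/
theorem kummer : ∃ κ : U →* Multiplicative (Vale.Agent.P022.L3.V N M n),
    Function.Surjective κ ∧
    (∀ f : U, κ f = 1 ↔ ∃ g : (MF Γ)ˣ, g ^ 2 ^ n = (f : (MF Γ)ˣ)) ∧
    ∀ (f : U) (y : Mer), y ^ 2 ^ n = (((f : (MF Γ)ˣ) : MF Γ) : Mer) → ∀ γ ∈ Γ,
      act γ⁻¹ y =
        algebraMap ℂ Mer (ez (2 ^ n) (((κ f).toAdd : SL(2, ℤ) → ZMod (2 ^ n)) γ)) * y := by
  refine ⟨kum hΓ U hU, ?_, ?_, ?_⟩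
  · intro v
    obtain ⟨f, hf⟩ := kv_surj hΓ U hU v.toAdd
    exact ⟨f, (kum_apply hΓ U hU f).trans (congrArg Multiplicative.ofAdd hf)⟩
  · intro f
    rw [← kv_ker hΓ U hU f, kum_apply, ofAdd_eq_one]
  · intro f y hy γ hγ
    rw [kum_apply, toAdd_ofAdd]
    exact kv_spec hΓ U hU f y hy γ hγ

end

end

end Vale.Agent.P022.H587.L3
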