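import Mathlib

/-!
# P022-L3, chapter G: Taylor expansions at the points of the upper half plane (helper587)
-/

open Filter Topology UpperHalfPlane
open scoped Manifold

namespace Vale.Agent.P022.H587.L3

noncomputable section

/-- Taylor series. -/
def ts (F : ℂ → ℂ) (a : ℂ) : PowerSeries ℂ :=
  PowerSeries.mk fun n => (n.factorial : ℂ)⁻¹ * iteratedDeriv n F a

theorem ts_congr {F G : ℂ → ℂ} {a : ℂ} (h : F =ᶠ[𝓝 a] G) : ts F a = ts G a := by
  ext n
  simp only [ts, PowerSeries.coeff_mk]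
  rw [(h.iteratedDeriv n).self_of_nhds]

theorem ts_add {F G : ℂ → ℂ} {a : ℂ} (hF : AnalyticAt ℂ F a) (hG : AnalyticAt ℂ G a) :
    ts (F + G) a = ts F a + ts G a := by
  ext n
  simp only [ts, PowerSeries.coeff_mk, map_add]
  rw [iteratedDeriv_add hF.contDiffAt hG.contDiffAt]
  ring

theorem ts_mul {F G : ℂ → ℂ} {a : ℂ} (hF : AnalyticAt ℂ F a) (hG : AnalyticAt ℂ G a) :
    ts (F * G) a = ts F a * ts G a := by
  ext n
  simp only [ts, PowerSeries.coeff_mk, iteratedDeriv_mul hF.contDiffAt hG.contDiffAt,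
    Finset.mul_sum, PowerSeries.coeff_mul, Finset.Nat.sum_antidiagonal_eq_sum_range_succ_mk,
    Nat.succ_eq_add_one]
  refine Finset.sum_congr rfl fun i hi => ?_
  rw [Nat.cast_choose _ (by grind)]
  field_simp [Nat.factorial_ne_zero]

theorem ts_const (c a : ℂ) : ts (fun _ => c) a = PowerSeries.C c := by
  ext n
  simp only [ts, PowerSeries.coeff_mk, iteratedDeriv_const, PowerSeries.coeff_C]
  split_ifs with h
  · simp [h]
  · simp

theorem ts_id (a : ℂ) : ts (fun z => z) a = PowerSeries.C a + PowerSeries.X := by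
  ext n
  simp only [ts, PowerSeries.coeff_mk, map_add, PowerSeries.coeff_C, PowerSeries.coeff_X]
  rcases n with _ | n
  · simp
  · rw [iteratedDeriv_succ']
    have : deriv (fun z : ℂ => z) = fun _ => 1 := by
      funext z
      simp
    rw [this, iteratedDeriv_const]
    rcases n with _ | n
    · simp
    · simp

theorem order_ts {F : ℂ → ℂ} {a : ℂ} (hF : AnalyticAt ℂ F a) :
    (ts F a).order = analyticOrderAt F a := by
  refine ENat.eq_of_forall_natCast_le_iff fun n => ?_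
  rw [natCast_le_analyticOrderAt_iff_iteratedDeriv_eq_zero hF]
  have key : ∀ i, PowerSeries.coeff i (ts F a) = 0 ↔ iteratedDeriv i F a = 0 := by
    intro i
    simp only [ts, PowerSeries.coeff_mk, mul_eq_zero, inv_eq_zero]
    have : (i.factorial : ℂ) ≠ 0 := by exact_mod_cast i.factorial_ne_zero
    simp [this]
  constructor
  · intro h i hi
    rw [← key]
    exact PowerSeries.coeff_of_lt_order i (lt_of_lt_of_le (by exact_mod_cast hi) h)
  · intro h
    exact PowerSeries.nat_le_order _ _ fun i hi => (key i).2 (h i hi)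

/-- Local inverses. -/
theorem exists_inv {p : ℂ → ℂ} {z : ℂ} (hp : AnalyticAt ℂ p z) (hd : deriv p z ≠ 0) :
    ∃ q : ℂ → ℂ, AnalyticAt ℂ q (p z) ∧ q (p z) = z ∧ deriv q (p z) ≠ 0 ∧
      (∀ᶠ w in 𝓝 (p z), p (q w) = w) ∧ ∀ᶠ w in 𝓝 z, q (p w) = w := by
  let q := hp.hasStrictDerivAt.localInverse _ _ _ hd
  have hq : AnalyticAt ℂ q (p z) := hp.analyticAt_localInverse hd
  have h1 : q (p z) = z := HasStrictFDerivAt.localInverse_apply_image ..
  have h2 : ∀ᶠ w in 𝓝 (p z), p (q w) = w := HasStrictDerivAt.eventually_right_inverse ..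
  have h3 : ∀ᶠ w in 𝓝 z, q (p w) = w := HasStrictDerivAt.eventually_left_inverse ..
  refine ⟨q, hq, h1, ?_, h2, h3⟩
  intro h0
  have h4 : HasDerivAt (fun w => p (q w)) (deriv p z * deriv q (p z)) (p z) := by
    have h5 : HasDerivAt p (deriv p z) (q (p z)) := by
      rw [h1]
      exact hp.differentiableAt.hasDerivAt
    exact h5.comp (p z) hq.differentiableAt.hasDerivAt
  have h6 : HasDerivAt (fun w => p (q w)) 1 (p z) :=
    (hasDerivAt_id (p z)).congr_of_eventuallyEq h2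
  have h7 := h4.unique h6
  rw [h0, mul_zero] at h7
  exact zero_ne_one h7

theorem analyticAt_of_mdiff {f : ℍ → ℂ} (hf : MDifferentiable 𝓘(ℂ) 𝓘(ℂ) f) {z : ℂ}
    (hz : 0 < z.im) : AnalyticAt ℂ (f ∘ ofComplex) z :=
  (UpperHalfPlane.mdifferentiable_iff.1 hf).analyticAt (isOpen_upperHalfPlaneSet.mem_nhds hz)

theorem eq_zero_of_order {f : ℍ → ℂ} (hf : MDifferentiable 𝓘(ℂ) 𝓘(ℂ) f) {z : ℂ}
    (hz : 0 < z.im) (h : analyticOrderAt (f ∘ ofComplex) z = ⊤) : f = 0 := by
  have h1 : AnalyticOnNhd ℂ (f ∘ ofComplex) {z | 0 < z.im} := fun w hw =>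
    analyticAt_of_mdiff hf hw
  have h2 : IsPreconnected {z : ℂ | 0 < z.im} := (convex_halfSpace_im_gt 0).isPreconnected
  have h3 := h1.eqOn_zero_of_preconnected_of_eventuallyEq_zero h2 hz (analyticOrderAt_eq_top.1 h)
  funext τ
  have h4 := h3 τ.im_pos
  simpa using h4

section

variable {A : Type*} [CommRing A] (ι : A →+* (ℍ → ℂ))
  (hι : ∀ a, MDifferentiable 𝓘(ℂ) 𝓘(ℂ) (ι a))

/-- The Taylor expansion in a local coordinate with inverse `q`. -/
def tay {q : ℂ → ℂ} {b : ℂ} (hq : AnalyticAt ℂ q b) (hb : 0 < (q b).im) : A →+* PowerSeries ℂ where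
  toFun a := ts ((ι a ∘ ofComplex) ∘ q) b
  map_one' := by
    have : (ι 1 ∘ ofComplex) ∘ q = fun _ => (1 : ℂ) := by
      funext w
      simp
    rw [this, ts_const, map_one]
  map_zero' := by
    have : (ι 0 ∘ ofComplex) ∘ q = fun _ => (0 : ℂ) := by
      funext w
      simp
    rw [this, ts_const, map_zero]
  map_add' a b := by
    have : (ι (a + b) ∘ ofComplex) ∘ q = (ι a ∘ ofComplex) ∘ q + (ι b ∘ ofComplex) ∘ q := by
      funext w
      simp
    rw [this, ts_add ((analyticAt_of_mdiff (hι a) hb).comp hq)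
      ((analyticAt_of_mdiff (hι b) hb).comp hq)]
  map_mul' a b := by
    have : (ι (a * b) ∘ ofComplex) ∘ q = (ι a ∘ ofComplex) ∘ q * (ι b ∘ ofComplex) ∘ q := by
      funext w
      simp
    rw [this, ts_mul ((analyticAt_of_mdiff (hι a) hb).comp hq)
      ((analyticAt_of_mdiff (hι b) hb).comp hq)]

theorem tay_apply {q : ℂ → ℂ} {b : ℂ} (hq : AnalyticAt ℂ q b) (hb : 0 < (q b).im) (a : A) :
    tay ι hι hq hb a = ts ((ι a ∘ ofComplex) ∘ q) b := rfl

theorem tay_order {q : ℂ → ℂ} {b : ℂ} (hq : AnalyticAt ℂ q b) (hb : 0 < (q b).im)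
    (hd : deriv q b ≠ 0) (a : A) :
    (tay ι hι hq hb a).order = analyticOrderAt (ι a ∘ ofComplex) (q b) := by
  rw [tay_apply, order_ts ((analyticAt_of_mdiff (hι a) hb).comp hq),
    analyticOrderAt_comp_of_deriv_ne_zero hq hd]

theorem tay_injective {q : ℂ → ℂ} {b : ℂ} (hq : AnalyticAt ℂ q b) (hb : 0 < (q b).im)
    (hd : deriv q b ≠ 0) (hinj : Function.Injective ι) : Function.Injective (tay ι hι hq hb) := by
  rw [injective_iff_map_eq_zero]
  intro a ha
  have h1 := tay_order ι hι hq hb hd a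
  rw [ha, PowerSeries.order_zero] at h1
  have h2 := eq_zero_of_order (hι a) hb h1.symm
  exact hinj (by rw [h2, map_zero])

theorem tay_coord {q : ℂ → ℂ} {b : ℂ} (hq : AnalyticAt ℂ q b) (hb : 0 < (q b).im) (π : A)
    (h : ∀ᶠ w in 𝓝 b, (ι π ∘ ofComplex) (q w) = w) :
    tay ι hι hq hb π = PowerSeries.C b + PowerSeries.X := by
  rw [tay_apply, ← ts_id]
  exact ts_congr h

theorem tay_const {q : ℂ → ℂ} {b : ℂ} (hq : AnalyticAt ℂ q b) (hb : 0 < (q b).im) (a : A) (c : ℂ)
    (h : ∀ τ, ι a τ = c) : tay ι hι hq hb a = PowerSeries.C c := by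
  rw [tay_apply, ← ts_const c b]
  congr 1
  funext w
  simp [h]

/-- **[TAY]** The points of the upper half plane as embeddings of the field of meromorphic
functions in the field of Laurent series. -/
theorem exists_theta (hι : ∀ a, MDifferentiable 𝓘(ℂ) 𝓘(ℂ) (ι a)) [Algebra ℂ A] (hC : ∀ (c : ℂ) (τ : ℍ), ι (algebraMap ℂ A c) τ = c)
    (K : Type*) [Field K] [Algebra A K] [IsFractionRing A K] [Algebra ℂ K] [IsScalarTower ℂ A K]
    (hinj : Function.Injective ι) (π : A) (τ : ℍ) (hd : deriv (ι π ∘ ofComplex) (τ : ℂ) ≠ 0) :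
    ∃ θ : K →ₐ[ℂ] LaurentSeries ℂ,
      θ (algebraMap A K π) = HahnSeries.C (ι π τ) + HahnSeries.single 1 1 ∧
      ∀ a : A, ∃ s : PowerSeries ℂ, θ (algebraMap A K a) = (s : LaurentSeries ℂ) ∧
        s.order = analyticOrderAt (ι a ∘ ofComplex) (τ : ℂ) := by
  obtain ⟨q, q1, q2, q3, q4, -⟩ := exists_inv (analyticAt_of_mdiff (hι π) τ.im_pos) hd
  have hv : (ι π ∘ ofComplex) (τ : ℂ) = ι π τ := by simp
  rw [hv] at q1 q2 q3 q4
  have hb : 0 < (q (ι π τ)).im := by
    rw [q2]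
    exact τ.im_pos
  have hi := tay_injective ι hι q1 hb q3 hinj
  let g : A →+* LaurentSeries ℂ := (HahnSeries.ofPowerSeries ℤ ℂ).comp (tay ι hι q1 hb)
  have hg : Function.Injective g := HahnSeries.ofPowerSeries_injective.comp hi
  let θ : K →+* LaurentSeries ℂ := IsFractionRing.lift hg
  have hθ : ∀ a : A, θ (algebraMap A K a) = HahnSeries.ofPowerSeries ℤ ℂ (tay ι hι q1 hb a) :=
    fun a => IsFractionRing.lift_algebraMap hg a
  refine ⟨{ θ with
    commutes' := fun c => ?_ }, ?_, fun a => ⟨tay ι hι q1 hb a, hθ a, ?_⟩⟩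
  · change θ (algebraMap ℂ K c) = algebraMap ℂ (LaurentSeries ℂ) c
    rw [IsScalarTower.algebraMap_apply ℂ A K, hθ, tay_const ι hι q1 hb _ c (hC c)]
    rfl
  · change θ (algebraMap A K π) = _
    rw [hθ, tay_coord ι hι q1 hb π q4, map_add, HahnSeries.ofPowerSeries_C,
      HahnSeries.ofPowerSeries_X]
  · rw [tay_order ι hι q1 hb q3, q2]

end

end

end Vale.Agent.P022.H587.L3
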