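import Vale.Agent.P022.H218.L3.Amb
import Vale.Agent.P022.H724.L3.Root
import Vale.Agent.P022.H587.Poin
import Vale.Agent.P022.H587.L3.Tay

/-!
# P022-L3, chapter G: Kummer classes and characters (helper587)
-/

open Filter Topology UpperHalfPlane ModularForm
open scoped Manifold MatrixGroups ModularForm

namespace Vale.Agent.P022.H587.L3

noncomputable section

open Vale.Agent.P022.H218.L3

/-- The order at a point. -/
def om (τ : ℍ) (f : ℍ → ℂ) : ℕ := analyticOrderNatAt (f ∘ ofComplex) (τ : ℂ)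

theorem order_ne_top {f : ℍ → ℂ} (hf : f ∈ Hol) (h0 : f ≠ 0) (τ : ℍ) :
    analyticOrderAt (f ∘ ofComplex) (τ : ℂ) ≠ ⊤ := fun h => h0 (eq_zero_of_order hf τ.im_pos h)

theorem om_eq {f : ℍ → ℂ} (hf : f ∈ Hol) (h0 : f ≠ 0) (τ : ℍ) :
    analyticOrderAt (f ∘ ofComplex) (τ : ℂ) = om τ f :=
  (ENat.natCast_toNat (order_ne_top hf h0 τ)).symm

theorem om_mul {f g : ℍ → ℂ} (hf : f ∈ Hol) (hg : g ∈ Hol) (h0 : f ≠ 0) (h0' : g ≠ 0) (τ : ℍ) :
    om τ (f * g) = om τ f + om τ g := by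
  have h1 : analyticOrderAt ((f * g) ∘ ofComplex) (τ : ℂ) = om τ f + om τ g := by
    have : (f * g) ∘ ofComplex = (f ∘ ofComplex) * (g ∘ ofComplex) := rfl
    rw [this, analyticOrderAt_mul (analyticAt_of_mdiff hf τ.im_pos)
      (analyticAt_of_mdiff hg τ.im_pos), om_eq hf h0, om_eq hg h0']
  unfold om
  rw [analyticOrderNatAt, h1]
  rfl

theorem mul_ne {f g : ℍ → ℂ} (hf : f ∈ Hol) (hg : g ∈ Hol) (h0 : f ≠ 0) (h0' : g ≠ 0) :
    f * g ≠ 0 := by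
  intro h
  rcases (UpperHalfPlane.mul_eq_zero_iff hf hg).1 h with h | h
  · exact h0 h
  · exact h0' h

theorem pow_ne {f : ℍ → ℂ} (hf : f ∈ Hol) (h0 : f ≠ 0) (n : ℕ) : f ^ n ≠ 0 := by
  induction n with
  | zero =>
    intro h
    have := congrFun h UpperHalfPlane.I
    simp at this
  | succ n ih =>
    rw [pow_succ]
    exact mul_ne (Hol.pow_mem hf n) hf ih h0

theorem om_pow {f : ℍ → ℂ} (hf : f ∈ Hol) (h0 : f ≠ 0) (n : ℕ) (τ : ℍ) :
    om τ (f ^ n) = n * om τ f := by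
  induction n with
  | zero =>
    have h1 : (f ^ 0) ∘ ofComplex = fun _ => (1 : ℂ) := by
      funext z
      simp
    have h2 : analyticOrderAt (fun _ : ℂ => (1 : ℂ)) (τ : ℂ) = 0 :=
      analyticAt_const.analyticOrderAt_eq_zero.2 one_ne_zero
    unfold om
    rw [analyticOrderNatAt, h1, h2]
    simp
  | succ n ih =>
    rw [pow_succ, om_mul (Hol.pow_mem hf n) hf (pow_ne hf h0 n) h0, ih]
    ring

theorem inc_pow {f : ℍ → ℂ} (hf : f ∈ Hol) (n : ℕ) :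
    inc (f ^ n) (Hol.pow_mem hf n) = inc f hf ^ n := by
  unfold inc
  rw [← map_pow]
  rfl

theorem inc_ne {f : ℍ → ℂ} (hf : f ∈ Hol) (h0 : f ≠ 0) : inc f hf ≠ 0 := fun h =>
  h0 ((inc_eq_zero hf).1 h)

theorem exists_frac (x : Mer) (hx : x ≠ 0) : ∃ (g h : ℍ → ℂ) (hg : g ∈ Hol) (hh : h ∈ Hol),
    g ≠ 0 ∧ h ≠ 0 ∧ x = inc g hg / inc h hh := by
  obtain ⟨a, b, hb, hab⟩ := IsFractionRing.div_surjective (A := Hol) x
  have hb0 : (b : ℍ → ℂ) ≠ 0 := fun h => nonZeroDivisors.ne_zero hb (Subtype.ext h)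
  refine ⟨a, b, a.2, b.2, ?_, hb0, hab.symm⟩
  intro h
  apply hx
  rw [← hab]
  have : a = 0 := Subtype.ext h
  rw [this, map_zero, zero_div]

/-- All orders are divisible by `N`. -/
def Dv (N : ℕ) (x : Mer) : Prop := ∀ (g h : ℍ → ℂ) (hg : g ∈ Hol) (hh : h ∈ Hol), g ≠ 0 → h ≠ 0 →
  x = inc g hg / inc h hh → ∀ τ, (N : ℤ) ∣ (om τ g : ℤ) - om τ h

theorem om_eq_of_frac {g h g' h' : ℍ → ℂ} (hg : g ∈ Hol) (hh : h ∈ Hol) (hg' : g' ∈ Hol)
    (hh' : h' ∈ Hol) (g0 : g ≠ 0) (h0 : h ≠ 0) (g0' : g' ≠ 0) (h0' : h' ≠ 0)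
    (e : inc g hg / inc h hh = inc g' hg' / inc h' hh') (τ : ℍ) :
    (om τ g : ℤ) - om τ h = om τ g' - om τ h' := by
  rw [div_eq_div_iff (inc_ne hh h0) (inc_ne hh' h0'), ← inc_mul, ← inc_mul] at e
  have e1 := inc_injective _ _ e
  have e2 := congrArg (om τ) e1
  rw [om_mul hg hh' g0 h0', om_mul hg' hh g0' h0] at e2
  omega

theorem Dv_of {N : ℕ} {g h : ℍ → ℂ} (hg : g ∈ Hol) (hh : h ∈ Hol) (g0 : g ≠ 0) (h0 : h ≠ 0)
    (H : ∀ τ, (N : ℤ) ∣ (om τ g : ℤ) - om τ h) : Dv N (inc g hg / inc h hh) := by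
  intro g' h' hg' hh' g0' h0' e τ
  rw [← om_eq_of_frac hg hh hg' hh' g0 h0 g0' h0' e τ]
  exact H τ

/-- `N`-th powers. -/
theorem Dv_pow (N : ℕ) (y : Mer) (hy : y ≠ 0) : Dv N (y ^ N) := by
  obtain ⟨a, b, ha, hb, a0, b0, rfl⟩ := exists_frac y hy
  rw [div_pow, ← inc_pow, ← inc_pow]
  refine Dv_of _ _ (pow_ne ha a0 N) (pow_ne hb b0 N) fun τ => ?_
  rw [om_pow ha a0, om_pow hb b0]
  push_cast
  exact ⟨(om τ a : ℤ) - om τ b, by ring⟩

/-- Holomorphic roots. -/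
theorem exists_root_hol {F : ℍ → ℂ} (hF : F ∈ Hol) (F0 : F ≠ 0) {N : ℕ} (hN : 0 < N)
    (H : ∀ τ, N ∣ om τ F) : ∃ r ∈ Hol, r ^ N = F := by
  have h1 : DifferentiableOn ℂ (F ∘ ofComplex) {z | 0 < z.im} :=
    UpperHalfPlane.mdifferentiable_iff.1 hF
  obtain ⟨r, r1, r2⟩ := H724.L3.exists_root h1 (by
    by_contra hcon
    push Not at hcon
    apply F0
    funext τ
    have := hcon τ τ.im_pos
    simpa using this) hN (fun z hz => by
    obtain ⟨m, hm⟩ := H ⟨z, hz⟩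
    refine ⟨m, ?_⟩
    have := om_eq hF F0 ⟨z, hz⟩
    rw [hm] at this
    exact this)
  refine ⟨fun τ => r τ, ?_, ?_⟩
  · rw [mem_Hol, UpperHalfPlane.mdifferentiable_iff]
    refine r1.congr fun z hz => ?_
    simp only [Function.comp_apply]
    rw [ofComplex_apply_of_im_pos hz]
  · funext τ
    have := r2 τ τ.im_pos
    simpa using this

/-- **Roots of the classes.** -/
theorem exists_root {N : ℕ} (hN : 0 < N) {x : Mer} (hx : x ≠ 0) (H : Dv N x) :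
    ∃ y : Mer, y ≠ 0 ∧ y ^ N = x := by
  obtain ⟨g, h, hg, hh, g0, h0, rfl⟩ := exists_frac x hx
  have hF : g * h ^ (N - 1) ∈ Hol := Hol.mul_mem hg (Hol.pow_mem hh _)
  have F0 : g * h ^ (N - 1) ≠ 0 := mul_ne hg (Hol.pow_mem hh _) g0 (pow_ne hh h0 _)
  obtain ⟨r, hr, hrN⟩ := exists_root_hol hF F0 hN (fun τ => by
    rw [om_mul hg (Hol.pow_mem hh _) g0 (pow_ne hh h0 _), om_pow hh h0]
    have h1 := H g h hg hh g0 h0 rfl τ
    have h2 : ((om τ g + (N - 1) * om τ h : ℕ) : ℤ) = (om τ g - om τ h) + N * om τ h := by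
      push_cast [Nat.cast_sub hN]
      ring
    have h3 : (N : ℤ) ∣ ((om τ g + (N - 1) * om τ h : ℕ) : ℤ) := by
      rw [h2]
      exact dvd_add h1 (dvd_mul_right _ _)
    exact_mod_cast h3)
  have e1 : inc r hr ^ N = inc g hg * inc h hh ^ (N - 1) := by
    rw [← inc_pow, ← inc_pow, ← inc_mul]
    exact inc_congr _ hrN
  refine ⟨inc r hr / inc h hh, ?_, ?_⟩
  · refine div_ne_zero ?_ (inc_ne hh h0)
    intro h'
    rw [h', zero_pow hN.ne'] at e1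
    exact mul_ne_zero (inc_ne hg g0) (pow_ne_zero _ (inc_ne hh h0)) e1.symm
  · rw [div_pow, e1]
    have h1 := inc_ne hh h0
    obtain ⟨n, rfl⟩ : ∃ n, N = n + 1 := ⟨N - 1, by omega⟩
    rw [Nat.add_sub_cancel, pow_succ]
    field_simp

/-- Roots of unity in `Mer` are constant. -/
theorem exists_const {N : ℕ} (hN : 0 < N) {x : Mer} (hx : x ^ N = 1) :
    ∃ ζ : ℂˣ, ζ ^ N = 1 ∧ x = algebraMap ℂ Mer ζ := by
  have : NeZero N := ⟨hN.ne'⟩
  obtain ⟨ζ, hζ⟩ : ∃ ζ : ℂ, IsPrimitiveRoot ζ N := ⟨_, Complex.isPrimitiveRoot_exp N hN.ne'⟩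
  have h1 : IsPrimitiveRoot (algebraMap ℂ Mer ζ) N := hζ.map_of_injective (algebraMap ℂ Mer).injective
  obtain ⟨i, -, hi⟩ := h1.eq_pow_of_pow_eq_one hx
  have h0 : ζ ≠ 0 := hζ.ne_zero hN.ne'
  refine ⟨Units.mk0 ζ h0 ^ i, ?_, ?_⟩
  · rw [← pow_mul, mul_comm, pow_mul]
    have : Units.mk0 ζ h0 ^ N = 1 := by
      ext
      simp [hζ.pow_eq_one]
    rw [this, one_pow]
  · rw [← hi]
    simp

/-- `y (γ τ) = φ γ * y τ`. -/
def IsChar (Γ : Subgroup SL(2, ℤ)) (y : Mer) (φ : Γ →* ℂˣ) : Prop :=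
  ∀ γ : Γ, act (γ : SL(2, ℤ))⁻¹ y = algebraMap ℂ Mer (φ γ) * y

theorem IsChar.mul {Γ : Subgroup SL(2, ℤ)} {y y' : Mer} {φ φ' : Γ →* ℂˣ} (h : IsChar Γ y φ)
    (h' : IsChar Γ y' φ') : IsChar Γ (y * y') (φ * φ') := by
  intro γ
  rw [map_mul, h γ, h' γ]
  simp only [MonoidHom.mul_apply, Units.val_mul, map_mul]
  ring

theorem IsChar.pow {Γ : Subgroup SL(2, ℤ)} {y : Mer} {φ : Γ →* ℂˣ} (h : IsChar Γ y φ) (n : ℕ) :
    IsChar Γ (y ^ n) (φ ^ n) := by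
  intro γ
  rw [map_pow, h γ]
  simp only [MonoidHom.pow_apply, Units.val_pow_eq_pow_val, map_pow]
  ring

theorem IsChar.const {Γ : Subgroup SL(2, ℤ)} {y : Mer} {φ : Γ →* ℂˣ} (h : IsChar Γ y φ) (c : ℂ) :
    IsChar Γ (algebraMap ℂ Mer c * y) φ := by
  intro γ
  rw [map_mul, h γ, AlgEquiv.commutes]
  ring

theorem IsChar.unique {Γ : Subgroup SL(2, ℤ)} {y : Mer} {φ φ' : Γ →* ℂˣ} (h : IsChar Γ y φ)
    (h' : IsChar Γ y φ') (hy : y ≠ 0) : φ = φ' := by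
  ext γ
  have h1 := (h γ).symm.trans (h' γ)
  have h2 := mul_right_cancel₀ hy h1
  exact (algebraMap ℂ Mer).injective h2

/-- Two roots of the same class have the same character. -/
theorem IsChar.unique' {Γ : Subgroup SL(2, ℤ)} {y y' : Mer} {φ φ' : Γ →* ℂˣ} (h : IsChar Γ y φ)
    (h' : IsChar Γ y' φ') (hy : y ≠ 0) {N : ℕ} (hN : 0 < N) (e : y ^ N = y' ^ N) : φ = φ' := by
  have hy' : y' ≠ 0 := by
    intro h0
    rw [h0, zero_pow hN.ne'] at e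
    exact hy (pow_eq_zero_iff hN.ne' |>.1 e)
  have h1 : (y / y') ^ N = 1 := by
    rw [div_pow, e, div_self (pow_ne_zero _ hy')]
  obtain ⟨ζ, -, hζ⟩ := exists_const hN h1
  have h2 : y = algebraMap ℂ Mer ζ * y' := by
    rw [← hζ, div_mul_cancel₀ _ hy']
  refine h.unique ?_ hy
  rw [h2]
  exact h'.const ζ

theorem act_neg_one (y : Mer) : act (-1) y = y := by
  have h1 : act (-1) = 1 := by
    apply AlgEquiv.ext
    intro x
    obtain ⟨a, b, hb, hab⟩ := IsFractionRing.div_surjective (A := Hol) x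
    have key : ∀ a : Hol, actH (-1) a = a := by
      intro a
      ext τ
      rw [actH_apply]
      simp
    rw [← hab, map_div₀, act_algebraMap, act_algebraMap, key, key]
    rfl
  rw [h1]
  rfl

/-- **The character of a class.** -/
theorem exists_char {Γ : Subgroup SL(2, ℤ)} {N : ℕ} (hN : 0 < N) {y : Mer} (hy : y ≠ 0)
    (H : ∀ γ ∈ Γ, act γ (y ^ N) = y ^ N) : ∃ φ : Γ →* ℂˣ, φ ^ N = 1 ∧
      (∀ γ : Γ, (γ : SL(2, ℤ)) = -1 → φ γ = 1) ∧ IsChar Γ y φ := by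
  have h1 : ∀ γ : Γ, ∃ ζ : ℂˣ, ζ ^ N = 1 ∧ act (γ : SL(2, ℤ))⁻¹ y = algebraMap ℂ Mer ζ * y := by
    intro γ
    obtain ⟨ζ, hζ, h⟩ := exists_const hN (x := act (γ : SL(2, ℤ))⁻¹ y / y) (by
      rw [div_pow, ← map_pow, H _ (Γ.inv_mem γ.2), div_self (pow_ne_zero _ hy)])
    exact ⟨ζ, hζ, by rw [← h, div_mul_cancel₀ _ hy]⟩
  choose φ hφ hφ' using h1
  have hinj := (algebraMap ℂ Mer).injective
  refine ⟨{ toFun := φ, map_one' := ?_, map_mul' := ?_ }, ?_, ?_, hφ'⟩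
  · have h2 := hφ' 1
    have h3 : ((1 : Γ) : SL(2, ℤ))⁻¹ = 1 := by simp
    rw [h3, map_one, AlgEquiv.one_apply] at h2
    have h4 : algebraMap ℂ Mer (φ 1 : ℂ) = 1 := by
      have : (1 : Mer) * y = algebraMap ℂ Mer (φ 1 : ℂ) * y := by rw [one_mul]; exact h2
      exact (mul_right_cancel₀ hy this).symm
    ext
    apply hinj
    rw [h4]
    simp
  · intro γ δ
    have h2 := hφ' (γ * δ)
    have h3 : ((γ * δ : Γ) : SL(2, ℤ))⁻¹ = (δ : SL(2, ℤ))⁻¹ * (γ : SL(2, ℤ))⁻¹ := by simp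
    rw [h3, map_mul, AlgEquiv.mul_apply, hφ' γ, map_mul, AlgEquiv.commutes, hφ' δ, ← mul_assoc,
      ← map_mul] at h2
    have h4 := hinj (mul_right_cancel₀ hy h2)
    ext
    rw [← h4]
    simp
  · ext γ
    simp [hφ γ]
  · intro γ hγ
    have h2 := hφ' γ
    rw [hγ] at h2
    have h3 : (-1 : SL(2, ℤ))⁻¹ = -1 := by simp
    rw [h3, act_neg_one] at h2
    have h4 : (1 : Mer) * y = algebraMap ℂ Mer (φ γ : ℂ) * y := by rw [one_mul]; exact h2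
    have h5 := (mul_right_cancel₀ hy h4).symm
    have h6 : (φ γ : ℂ) = 1 := hinj (by rw [h5, map_one])
    exact Units.ext h6

theorem bdd_root {r : ℍ → ℂ} {k : ℤ} {N : ℕ} (hN : 0 < N) (hr : r ∈ Hol)
    (H : Bdd (N * k) (r ^ N)) : Bdd k r := by
  refine ⟨hr, fun γ => ?_⟩
  have h1 := H.2 γ
  have h2 : (r ^ N) ∣[(N * k : ℤ)] γ = (r ∣[k] γ) ^ N := by
    funext τ
    simp only [SL_slash_apply, Pi.pow_apply]
    rw [mul_pow, ← zpow_natCast, ← zpow_natCast, ← zpow_mul]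
    congr 2
    ring
  rw [h2] at h1
  rw [isBoundedAtImInfty_iff] at h1 ⊢
  obtain ⟨M, A, hM⟩ := h1
  refine ⟨max 1 M, A, fun z hz => ?_⟩
  have h3 := hM z hz
  rw [Pi.pow_apply, norm_pow] at h3
  by_contra hcon
  push Not at hcon
  have h4 : 1 ≤ ‖(r ∣[k] γ) z‖ := (le_max_left _ _).trans hcon.le
  have h5 : ‖(r ∣[k] γ) z‖ ≤ ‖(r ∣[k] γ) z‖ ^ N := le_self_pow₀ h4 hN.ne'
  have h6 := (le_max_right 1 M).trans_lt hcon
  linarith

/-- **The kernel.** -/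
theorem mem_of_trivial {Γ : Subgroup SL(2, ℤ)} {N : ℕ} (hN : 0 < N) {y : Mer} (hy : y ≠ 0)
    (H : y ^ N ∈ MF Γ) (h : IsChar Γ y 1) : y ∈ MF Γ := by
  obtain ⟨k, g, h', hg, hh, h0, e⟩ := H
  have g0 : g ≠ 0 := by
    intro h1
    subst h1
    rw [(inc_eq_zero hg.hol).2 rfl, zero_div] at e
    exact pow_ne_zero _ hy e
  -- `y * h'` is holomorphic
  have hF : g * h' ^ (N - 1) ∈ Hol := Hol.mul_mem hg.hol (Hol.pow_mem hh.hol _)
  have F0 : g * h' ^ (N - 1) ≠ 0 := mul_ne hg.hol (Hol.pow_mem hh.hol _) g0 (pow_ne hh.hol h0 _)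
  have e1 : (y * inc h' hh.hol) ^ N = inc (g * h' ^ (N - 1)) hF := by
    rw [mul_pow, e, inc_mul hg.hol (Hol.pow_mem hh.hol _), inc_pow hh.hol]
    have h1 := inc_ne hh.hol h0
    obtain ⟨n, rfl⟩ : ∃ n, N = n + 1 := ⟨N - 1, by omega⟩
    rw [Nat.add_sub_cancel, pow_succ]
    field_simp
  have hdv := Dv_pow N (y * inc h' hh.hol) (mul_ne_zero hy (inc_ne hh.hol h0))
  obtain ⟨r, hr, hrN⟩ := exists_root_hol hF F0 hN (fun τ => by
    have h1 := hdv (g * h' ^ (N - 1)) 1 hF Hol.one_mem F0 (pow_ne hF F0 0) (by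
      rw [e1]
      have : inc (1 : ℍ → ℂ) Hol.one_mem = 1 := by
        unfold inc
        exact map_one _
      rw [this, div_one]) τ
    have h2 : om τ (1 : ℍ → ℂ) = 0 := by
      have := om_pow hF F0 0 τ
      rw [pow_zero, zero_mul] at this
      exact this
    rw [h2, Nat.cast_zero, sub_zero] at h1
    exact_mod_cast h1)
  have e2 : (y * inc h' hh.hol) ^ N = inc r hr ^ N := by
    rw [e1, ← inc_pow]
    exact (inc_congr _ hrN).symm
  have r0 : inc r hr ≠ 0 := by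
    intro h1
    rw [h1, zero_pow hN.ne'] at e2
    exact pow_ne_zero _ (mul_ne_zero hy (inc_ne hh.hol h0)) e2
  obtain ⟨ζ, -, hζ⟩ := exists_const hN (x := y * inc h' hh.hol / inc r hr) (by
    rw [div_pow, e2, div_self (pow_ne_zero _ r0)])
  have e3 : y = algebraMap ℂ Mer ζ * (inc r hr / inc h' hh.hol) := by
    rw [← hζ]
    have h1 := inc_ne hh.hol h0
    field_simp
  -- `r` is a form
  have hB : Bdd k r := by
    refine bdd_root hN hr ?_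
    rw [hrN]
    have h1 := hg.toBdd.mul (IsMF.toBdd (hh.pow (N - 1)))
    have h2 : k + ((N - 1 : ℕ) : ℤ) * k = N * k := by
      push_cast [Nat.cast_sub hN]
      ring
    rwa [h2] at h1
  have hI : IsMF Γ k r := hB.isMF fun γ hγ => by
    have h1 := h ⟨γ, hγ⟩
    simp only [MonoidHom.one_apply, Units.val_one, map_one, one_mul] at h1
    rw [e3, map_mul, AlgEquiv.commutes] at h1
    have h2 := mul_left_cancel₀ (by
      rw [Ne, map_eq_zero_iff _ (algebraMap ℂ Mer).injective]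
      exact ζ.ne_zero) h1
    rw [act_div _ k hr hh.hol h0] at h2
    have h3 : inc (h' ∣[k] γ⁻¹⁻¹) (slash_mem hh.hol k _) = inc h' hh.hol :=
      (inc_congr hh.hol (by rw [inv_inv, hh.slash _ hγ])).symm
    rw [h3, div_left_inj' (inc_ne hh.hol h0)] at h2
    have h4 := inc_injective _ _ h2
    rwa [inv_inv] at h4
  rw [e3]
  exact (MF Γ).mul_mem ((MF Γ).algebraMap_mem _) ⟨k, r, h', hI, hh, h0, rfl⟩

theorem bdd_pow {f : ℍ → ℂ} (h : IsBoundedAtImInfty f) (n : ℕ) : IsBoundedAtImInfty (f ^ n) := by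
  rw [isBoundedAtImInfty_iff] at h ⊢
  obtain ⟨M, A, hM⟩ := h
  refine ⟨M ^ n, A, fun z hz => ?_⟩
  rw [Pi.pow_apply, norm_pow]
  exact pow_le_pow_left₀ (norm_nonneg _) (hM z hz) n

/-- **All characters occur.** -/
theorem exists_of_char {Γ : Subgroup SL(2, ℤ)} {N : ℕ} (hN : 0 < N) (φ : Γ →* ℂˣ) (hφ : φ ^ N = 1)
    (h1 : ∀ γ : Γ, (γ : SL(2, ℤ)) = -1 → φ γ = 1) :
    ∃ y : Mer, y ≠ 0 ∧ IsChar Γ y φ ∧ y ^ N ∈ MF Γ := by
  have hnorm : ∀ (ψ : Γ →* ℂˣ), ψ ^ N = 1 → ∀ γ, ‖(ψ γ : ℂ)‖ = 1 := by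
    intro ψ hψ γ
    have h2 : (ψ γ : ℂ) ^ N = 1 := by
      have := congrArg (fun f : Γ →* ℂˣ => ((f γ : ℂˣ) : ℂ)) hψ
      simpa using this
    exact Complex.norm_eq_one_of_pow_eq_one h2 hN.ne'
  obtain ⟨k₀, H0⟩ := Poin.exists_form Γ φ (hnorm φ hφ) h1
  obtain ⟨k₁, H1⟩ := Poin.exists_form Γ 1 (hnorm 1 (by ext; simp)) (fun _ _ => rfl)
  obtain ⟨f, f0, f1', f2, f3⟩ := H0 (max k₀ k₁) (le_max_left _ _)
  obtain ⟨g, g0, g1', g2, g3⟩ := H1 (max k₀ k₁) (le_max_right _ _)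
  have f1 : f ∈ Hol := f1'
  have g1 : g ∈ Hol := g1'
  set k : ℤ := 2 * ((max k₀ k₁ : ℕ) : ℤ) with hk
  have hg : IsMF Γ k g := ⟨g1, fun γ hγ => by
    have := g2 ⟨γ, hγ⟩
    simpa using this, g3⟩
  have hf : Bdd k f := ⟨f1, f3⟩
  refine ⟨inc f f1 / inc g g1, div_ne_zero (inc_ne _ f0) (inc_ne _ g0), fun γ => ?_, ?_⟩
  · rw [act_div _ k f1 g1 g0]
    have e1 : inc (g ∣[k] (γ : SL(2, ℤ))⁻¹⁻¹) (slash_mem g1 k _) = inc g g1 :=
      (inc_congr g1 (by rw [inv_inv, hg.slash _ γ.2])).symm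
    have e2 : inc (f ∣[k] (γ : SL(2, ℤ))⁻¹⁻¹) (slash_mem f1 k _) =
        algebraMap ℂ Mer (φ γ) * inc f f1 := by
      rw [← inc_const, ← inc_mul (Bdd.const _).1 f1]
      refine inc_congr _ ?_
      rw [inv_inv, f2 γ]
      rfl
    rw [e1, e2, mul_div_assoc]
  · rw [div_pow, ← inc_pow f1, ← inc_pow g1]
    have hfN : IsMF Γ (N * k) (f ^ N) := by
      refine ⟨Hol.pow_mem f1 N, fun γ hγ => ?_, fun γ => ?_⟩
      · have e1 := f2 ⟨γ, hγ⟩
        funext τ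
        have e2 := congrFun e1 τ
        simp only [SL_slash_apply, Pi.smul_apply, smul_eq_mul] at e2
        have e3 : (φ ⟨γ, hγ⟩ : ℂ) ^ N = 1 := by
          have := congrArg (fun f : Γ →* ℂˣ => ((f ⟨γ, hγ⟩ : ℂˣ) : ℂ)) hφ
          simpa using this
        simp only [SL_slash_apply, Pi.pow_apply]
        have e4 := congrArg (· ^ N) e2
        simp only [mul_pow, e3, one_mul] at e4
        rw [← e4]
        congr 1
        rw [← zpow_natCast, ← zpow_mul]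
        congr 1
        ring
      · have e1 : (f ^ N) ∣[(N * k : ℤ)] γ = (f ∣[k] γ) ^ N := by
          funext τ
          simp only [SL_slash_apply, Pi.pow_apply]
          rw [mul_pow, ← zpow_natCast, ← zpow_natCast, ← zpow_mul]
          congr 2
          ring
        rw [e1]
        exact bdd_pow (f3 γ) N
    exact ⟨N * k, f ^ N, g ^ N, hfN, hg.pow N, pow_ne g1 g0 N, rfl⟩

end

end Vale.Agent.P022.H587.L3
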