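import Vale.Agent.P022.H587.L3.Kum
import Vale.Agent.P022.H724.L3.Tay
import Vale.Agent.P022.H724.L3.PtGal

/-!
# P022-L3, chapter G: the condition at the points (helper587)

The Laurent expansions of `MF Γ` in `p - a` (`a` not a cusp value) are the Taylor expansions at the
points of `ℍ`, so `Geo.U N` is the condition `Dv N`.
-/

open Filter Topology UpperHalfPlane
open scoped Manifold MatrixGroups IntermediateField

namespace Vale.Agent.P022.H587.L3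

noncomputable section

open Vale.Agent.P022.H218.L3

theorem coe_mem : (fun τ : ℍ => (τ : ℂ)) ∈ Hol := UpperHalfPlane.mdifferentiable_coe

/-- the Moebius map on `ℂ` -/
def mob (γ : SL(2, ℤ)) : ℂ → ℂ := (fun τ : ℍ => ((γ • τ : ℍ) : ℂ)) ∘ ofComplex

theorem mob_an (γ : SL(2, ℤ)) (τ : ℍ) : AnalyticAt ℂ (mob γ) (τ : ℂ) :=
  analyticAt_of_mdiff (comp_mem γ coe_mem) τ.im_pos

theorem mob_coe (γ : SL(2, ℤ)) (τ : ℍ) : mob γ (τ : ℂ) = ((γ • τ : ℍ) : ℂ) := by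
  simp only [mob, Function.comp_apply, ofComplex_apply]

theorem mob_deriv (γ : SL(2, ℤ)) (τ : ℍ) : deriv (mob γ) (τ : ℂ) ≠ 0 := by
  intro h
  have h1 : HasDerivAt (mob γ) 0 (τ : ℂ) := by
    rw [← h]
    exact (mob_an γ τ).differentiableAt.hasDerivAt
  have h2 : HasDerivAt (mob γ⁻¹) (deriv (mob γ⁻¹) (mob γ τ)) (mob γ (τ : ℂ)) := by
    rw [mob_coe]
    exact (mob_an γ⁻¹ (γ • τ)).differentiableAt.hasDerivAt
  have h3 := h2.comp (τ : ℂ) h1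
  rw [mul_zero] at h3
  have h4 : HasDerivAt (fun z : ℂ => z) 0 (τ : ℂ) := by
    refine h3.congr_of_eventuallyEq ?_
    have : {z : ℂ | 0 < z.im} ∈ 𝓝 (τ : ℂ) :=
      (isOpen_lt continuous_const Complex.continuous_im).mem_nhds τ.im_pos
    filter_upwards [this] with z hz
    have hz' : z = ((⟨z, hz⟩ : ℍ) : ℂ) := rfl
    rw [Function.comp_apply, hz', mob_coe, mob_coe, inv_smul_smul]
  have h5 := h4.unique (hasDerivAt_id' (τ : ℂ))
  exact zero_ne_one h5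

theorem order_comp {f : ℍ → ℂ} (hf : f ∈ Hol) (γ : SL(2, ℤ)) (τ : ℍ) :
    analyticOrderAt ((fun z : ℍ => f (γ • z)) ∘ ofComplex) (τ : ℂ) =
      analyticOrderAt (f ∘ ofComplex) ((γ • τ : ℍ) : ℂ) := by
  have e : (fun z : ℍ => f (γ • z)) ∘ ofComplex = (f ∘ ofComplex) ∘ mob γ := by
    funext z
    simp only [mob, Function.comp_apply, ofComplex_apply]
  have h1 : AnalyticAt ℂ (f ∘ ofComplex) (mob γ (τ : ℂ)) := by
    rw [mob_coe]
    exact analyticAt_of_mdiff hf (γ • τ).im_pos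
  rw [e, h1.analyticOrderAt_comp (mob_an γ τ),
    (mob_an γ τ).analyticOrderAt_sub_eq_one_of_deriv_ne_zero (mob_deriv γ τ), mul_one, mob_coe]

theorem om_comp {f : ℍ → ℂ} (hf : f ∈ Hol) (γ : SL(2, ℤ)) (τ : ℍ) :
    om τ (fun z : ℍ => f (γ • z)) = om (γ • τ) f := by
  unfold om analyticOrderNatAt
  rw [order_comp hf]

theorem comp_ne {f : ℍ → ℂ} (h0 : f ≠ 0) (γ : SL(2, ℤ)) : (fun z : ℍ => f (γ • z)) ≠ 0 := by
  intro h
  apply h0
  funext τ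
  have := congrFun h (γ⁻¹ • τ)
  simpa using this

/-- **The condition is invariant under `SL(2, ℤ)`.** -/
theorem Dv_act {N : ℕ} {x : Mer} (hx : x ≠ 0) (H : Dv N x) (γ : SL(2, ℤ)) : Dv N (act γ x) := by
  obtain ⟨g, h, hg, hh, g0, h0, rfl⟩ := exists_frac x hx
  have e : act γ (inc g hg / inc h hh) =
      inc (fun τ => g (γ⁻¹ • τ)) (comp_mem γ⁻¹ hg) / inc (fun τ => h (γ⁻¹ • τ)) (comp_mem γ⁻¹ hh) := by
    rw [map_div₀]
    congr 1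
    · unfold inc
      rw [act_algebraMap]
      rfl
    · unfold inc
      rw [act_algebraMap]
      rfl
  rw [e]
  refine Dv_of _ _ (comp_ne g0 _) (comp_ne h0 _) fun τ => ?_
  rw [om_comp hg, om_comp hh]
  exact H g h hg hh g0 h0 rfl _

/-- evaluation -/
def evH : Hol →ₐ[ℂ] (ℂ → ℂ) where
  toFun f := (f : ℍ → ℂ) ∘ ofComplex
  map_one' := rfl
  map_mul' _ _ := rfl
  map_zero' := rfl
  map_add' _ _ := rfl
  commutes' _ := rfl

theorem evH_apply (f : Hol) : evH f = (f : ℍ → ℂ) ∘ ofComplex := rfl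

/-- **The Taylor expansion at `τ` in the coordinate `P - P τ`.** -/
theorem exists_Theta {P : ℍ → ℂ} (hP : P ∈ Hol) (τ : ℍ)
    (hd : deriv (P ∘ ofComplex) (τ : ℂ) ≠ 0) :
    ∃ Θ : Mer →ₐ[ℂ] LaurentSeries ℂ,
      Θ (inc P hP) = HahnSeries.C (P τ) + HahnSeries.single 1 1 ∧
      ∀ (g : ℍ → ℂ) (hg : g ∈ Hol), g ≠ 0 → (Θ (inc g hg)).order = (om τ g : ℤ) := by
  obtain ⟨Θ, h1, -, h3⟩ := H724.L3.exists_theta (R := Hol) (K := Mer) evH (τ : ℂ)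
    (fun x => analyticAt_of_mdiff x.2 τ.im_pos)
    (fun x hx h => hx (Subtype.ext (eq_zero_of_order x.2 τ.im_pos h)))
    ⟨P, hP⟩ hd
  refine ⟨Θ, ?_, fun g hg g0 => ?_⟩
  · have : evH ⟨P, hP⟩ (τ : ℂ) = P τ := by
      rw [evH_apply, Function.comp_apply, ofComplex_apply]
    rw [this] at h1
    exact h1
  · exact h3 ⟨g, hg⟩ (fun h => g0 (congrArg Subtype.val h))

theorem order_div {x y : LaurentSeries ℂ} (hx : x ≠ 0) (hy : y ≠ 0) :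
    (x / y).order = x.order - y.order := by
  have h1 : x = x / y * y := (div_mul_cancel₀ x hy).symm
  have h2 := congrArg HahnSeries.order h1
  rw [HahnSeries.order_mul (div_ne_zero hx hy) hy] at h2
  omega

/-- the order of the Taylor expansion of a quotient -/
theorem order_Theta {τ : ℍ} {Θ : Mer →ₐ[ℂ] LaurentSeries ℂ}
    (h : ∀ (g : ℍ → ℂ) (hg : g ∈ Hol), g ≠ 0 → (Θ (inc g hg)).order = (om τ g : ℤ))
    {g k : ℍ → ℂ} (hg : g ∈ Hol) (hk : k ∈ Hol) (g0 : g ≠ 0) (k0 : k ≠ 0) :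
    (Θ (inc g hg / inc k hk)).order = (om τ g : ℤ) - om τ k := by
  rw [map_div₀, order_div ((map_ne_zero Θ).2 (inc_ne hg g0)) ((map_ne_zero Θ).2 (inc_ne hk k0)),
    h g hg g0, h k hk k0]

/-- the points: `∃ θ` over every non-cusp value -/
theorem exists_pt {Γ : Subgroup SL(2, ℤ)} (p : MF Γ) {P : ℍ → ℂ} (hP : P ∈ Hol)
    (hpP : (p : Mer) = inc P hP) {a : ℂ} {τ : ℍ} (hd : deriv (P ∘ ofComplex) (τ : ℂ) ≠ 0)
    (hτ : P τ = a) : ∃ θ : MF Γ →ₐ[ℂ] LaurentSeries ℂ,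
      θ p = HahnSeries.C a + HahnSeries.single 1 1 := by
  obtain ⟨Θ, h1, -⟩ := exists_Theta hP τ hd
  refine ⟨Θ.comp (MF Γ).val, ?_⟩
  rw [← hτ, ← h1, ← hpP]
  rfl

/-- **`Geo.U N` is `Dv N`.** -/
theorem mem_U_iff {Γ : Subgroup SL(2, ℤ)} (p : MF Γ) {P : ℍ → ℂ} (hP : P ∈ Hol)
    (hpP : (p : Mer) = inc P hP) (hd : ∀ τ : ℍ, deriv (P ∘ ofComplex) (τ : ℂ) ≠ 0)
    (S : Finset ℚ) (hS : ∀ τ, ∀ s ∈ S, P τ ≠ (s : ℂ))
    (honto : ∀ a : ℂ, (∀ s ∈ S, a ≠ (s : ℂ)) → ∃ τ, P τ = a)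
    (hn : Normal ℂ⟮p⟯ (MF Γ))
    (hG : ∀ g : MF Γ ≃ₐ[ℂ⟮p⟯] MF Γ, ∃ γ : SL(2, ℤ), ∀ x, ((g x : MF Γ) : Mer) = act γ (x : Mer))
    (N : ℕ) (f : (MF Γ)ˣ) :
    (∀ a : ℂ, (∀ s ∈ S, a ≠ (s : ℂ)) → ∀ θ : MF Γ →ₐ[ℂ] LaurentSeries ℂ,
      θ p = HahnSeries.C a + HahnSeries.single 1 1 → (N : ℤ) ∣ (θ (f : MF Γ)).order) ↔
      Dv N ((f : MF Γ) : Mer) := by
  have hf0 : ((f : MF Γ) : Mer) ≠ 0 := fun h => f.ne_zero (Subtype.ext h)
  constructor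
  · intro H g h hg hh g0 h0 e τ
    obtain ⟨Θ, h1, h2⟩ := exists_Theta hP τ (hd τ)
    have h3 := H (P τ) (fun s hs => hS τ s hs) (Θ.comp (MF Γ).val) (by rw [← h1, ← hpP]; rfl)
    have h4 : (Θ.comp (MF Γ).val) (f : MF Γ) = Θ (inc g hg / inc h hh) := by
      rw [← e]; rfl
    rwa [h4, order_Theta h2 hg hh g0 h0] at h3
  · intro H a ha θ hθ
    obtain ⟨τ, rfl⟩ := honto a ha
    obtain ⟨Θ, h1, h2⟩ := exists_Theta hP τ (hd τ)
    have h3 : (Θ.comp (MF Γ).val) p = θ p := by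
      rw [hθ, ← h1, ← hpP]; rfl
    obtain ⟨g, hg⟩ := H724.L3.exists_gal' p (Θ.comp (MF Γ).val) θ h3
    obtain ⟨γ, hγ⟩ := hG g
    have h4 : θ (f : MF Γ) = Θ (act γ ((f : MF Γ) : Mer)) := by
      rw [hg, ← hγ]; rfl
    have hx : act γ ((f : MF Γ) : Mer) ≠ 0 := (map_ne_zero _).2 hf0
    obtain ⟨u, v, hu, hv, u0, v0, e⟩ := exists_frac _ hx
    rw [h4, e, order_Theta h2 hu hv u0 v0]
    exact Dv_act hf0 H γ u v hu hv u0 v0 e τ

end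

end Vale.Agent.P022.H587.L3
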